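import Vale.Agent.P284.H977.T.T8
import Mathlib.Analysis.InnerProductSpace.Dual

/-!
# P284, theorem T, row T9 (helper977): Hodge theorem for cocycles in finite-dimensional orthogonal
representations
-/

open scoped Manifold ContDiff Topology Pointwise ComplexConjugate ComplexOrder InnerProductSpace
open Filter Set Metric MeasureTheory

noncomputable section

namespace Vale.Agent.P284.H977.T

open Vale.Agent.P272.K Vale.Agent.P284.H248 Vale.Agent.P284.H894 Vale.Agent.P284.H894.V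
  Vale.Agent.P284.H639.V Vale.Agent.P284.H639.Tw Vale.Agent.P284.H639.T6 Vale.Agent.P284.H913.V
  Vale.Agent.P284.H287.T Vale.Agent.P284.H359.V Vale.Agent.P284.H66 Vale.Agent.P284.H66.S7
  Vale.Agent.P284.H119.Kaz
open Vale.Agent.P284.H409.A (ResStmt)
open Vale.Agent.P284.H409.T (T2Stmt T3Stmt T4FStmt T6UStmt T9LStmt T9Stmt HodgeP LimSec)

/-! ### Integrals of continuous functions -/

section
variable {n : ℕ} {Γ : Type} [Group Γ] {C : Coc n Γ}

theorem int_chi' (P : PU C) (K : KM C) {F : C.I → Cm n → ℝ} (hF : ∀ a, ContinuousOn (F a) (C.Ω a))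
    (a : C.I) : IntegrableOn (fun z => P.χ a a z * F a z * vol (K.w a) z) (C.V a) :=
  intV (((chi_cont P a a).mul (hF a)).mul (vol_cont K a))

theorem BInt_mono' (P : PU C) (K : KM C) {F G : C.I → Cm n → ℝ}
    (hF : ∀ a, ContinuousOn (F a) (C.Ω a)) (hG : ∀ a, ContinuousOn (G a) (C.Ω a))
    (h : ∀ a, ∀ z ∈ C.V a, F a z ≤ G a z) : BInt P K F ≤ BInt P K G := by
  unfold BInt
  refine Finset.sum_le_sum fun a _ => ?_
  refine setIntegral_mono_on (int_chi' P K hF a) (int_chi' P K hG a) measurableSet_ball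
    fun z hz => ?_
  have h1 := h a z hz
  have h2 := P.nonneg a a z
  have h3 := vol_nn K (V_sub_Ω C a hz)
  gcongr

theorem BInt_comb' (P : PU C) (K : KM C) {F G : C.I → Cm n → ℝ}
    (hF : ∀ a, ContinuousOn (F a) (C.Ω a)) (hG : ∀ a, ContinuousOn (G a) (C.Ω a)) (r t : ℝ) :
    BInt P K (fun a z => r * F a z + t * G a z) = r * BInt P K F + t * BInt P K G := by
  unfold BInt
  rw [Finset.mul_sum, Finset.mul_sum, ← Finset.sum_add_distrib]
  refine Finset.sum_congr rfl fun a _ => ?_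
  rw [← integral_const_mul, ← integral_const_mul,
    ← integral_add ((int_chi' P K hF a).const_mul r) ((int_chi' P K hG a).const_mul t)]
  refine setIntegral_congr_fun measurableSet_ball fun z _ => ?_
  ring

theorem BInt_zero (P : PU C) (K : KM C) {F : C.I → Cm n → ℝ}
    (h : ∀ a, ∀ z ∈ C.V a, F a z = 0) : BInt P K F = 0 := by
  rw [BInt_congr P K (G := fun _ _ => 0) h]
  simp [BInt]

end

theorem lapH_const {n : ℕ} {H : Type} [NormedAddCommGroup H] [InnerProductSpace ℝ H]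
    (w : Cm n → Matrix (Fin n) (Fin n) ℂ) (c : H) (z : Cm n) : lapH w (fun _ => c) z = 0 := by
  have h := lapH_smul (u := fun _ : Cm n => (0 : H)) (z := z) w 0 contDiffAt_const
  have h2 := lapH_clm (G := H) (u := fun _ : Cm n => (0 : H)) (z := z) w (0 : H →L[ℝ] H) c
    contDiffAt_const
  simpa using h2

theorem grH_add_le {n : ℕ} {H : Type} [NormedAddCommGroup H] [InnerProductSpace ℝ H]
    {w : Cm n → Matrix (Fin n) (Fin n) ℂ} {u v : Cm n → H} {z : Cm n} (hw : (w z).PosDef)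
    (hu : ContDiffAt ℝ ∞ u z) (hv : ContDiffAt ℝ ∞ v z) :
    grH w (fun y => u y + v y) (fun y => u y + v y) z ≤ 2 * grH w u u z + 2 * grH w v v z := by
  have hv' : ContDiffAt ℝ ∞ (fun y => (-1 : ℝ) • v y) z := contDiffAt_const.smul hv
  have h1 := grH_nonneg H730.V.vpStmt hw (da (hu.add hv'))
  have e1 : grH w (fun y => u y + (-1 : ℝ) • v y) (fun y => u y + (-1 : ℝ) • v y) z =
      grH w u u z - grH w u v z - grH w v u z + grH w v v z := by
    rw [grH_add w hu hv', grH_add' w hu hv', grH_add' w hu hv', grH_smul w _ hv,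
      grH_smul' w _ hv, grH_smul w _ hv, grH_smul' w _ hv]
    ring
  rw [e1] at h1
  rw [grH_add w hu hv, grH_add' w hu hv, grH_add' w hu hv]
  linarith

/-- the resolvent lemma on a submodule -/
theorem res_sub (hRes : ResStmt) {V : Type} [AddCommGroup V] [Module ℝ V]
    (ip en : V →ₗ[ℝ] V →ₗ[ℝ] ℝ) (L : V →ₗ[ℝ] V) (S : Submodule ℝ V) (hL : ∀ x, L x ∈ S)
    (h1 : ∀ f h, ip f h = ip h f) (h2 : ∀ f, 0 ≤ ip f f) (h3 : ∀ f h, en f h = en h f)
    (h4 : ∀ f, 0 ≤ en f f) (h5 : ∀ f h, ip (L f) h = -en f h)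
    (hd : ∃ l₀ : ℝ, 0 < l₀ ∧ ∀ l, l₀ ≤ l → ∀ f : S, ∀ δ : ℝ, 0 < δ → ∃ v : S,
      ip (l • (v : V) - L v - f) (l • (v : V) - L v - f) < δ)
    (hp : ∀ h : ℕ → S, (∃ B : ℝ, ∀ j, ip (h j) (h j) ≤ B) →
      Tendsto (fun j => en (h j) (h j)) atTop (𝓝 0) →
      Tendsto (fun j => ip (h j) (h j)) atTop (𝓝 0)) {α : V} (hα : α ∈ S) {δ : ℝ} (hδ : 0 < δ) :
    ∃ v : S, ip (L v + α) (L v + α) < δ := by
  obtain ⟨v, hv⟩ := hRes S (ip.compl₁₂ S.subtype S.subtype) (en.compl₁₂ S.subtype S.subtype)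
    (L.restrict fun x _ => hL x) (fun s t => h1 _ _) (fun s => h2 _) (fun s t => h3 _ _)
    (fun s => h4 _) (fun s t => h5 _ _) hd hp (-⟨α, hα⟩) δ hδ
  refine ⟨v, ?_⟩
  have e : (((L.restrict fun x _ => hL x : S →ₗ[ℝ] S) v - -⟨α, hα⟩ : S) : V) = L v + α := by
    rw [Submodule.coe_sub, Submodule.coe_neg, sub_neg_eq_add]
    rfl
  have h1' : ip (((L.restrict fun x _ => hL x : S →ₗ[ℝ] S) v - -⟨α, hα⟩ : S) : V)
    (((L.restrict fun x _ => hL x : S →ₗ[ℝ] S) v - -⟨α, hα⟩ : S) : V) < δ := hv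
  rw [e] at h1'
  exact h1'

/-! ### The orthogonal complement of the invariant vectors -/

section
variable {n : ℕ} {Γ : Type} [Group Γ] {C : Coc n Γ} {H : Type} [NormedAddCommGroup H]
  [InnerProductSpace ℝ H] {π : Γ →* (H ≃ₗᵢ[ℝ] H)}

theorem ip_LT (P : PU C) (K : KM C) (s t : SM C π) :
    ipT P K π (LT K π s) t = -enT P K π s t := by
  show ipT P K π (LT K π s) t = -(-(ipT P K π (LT K π s) t))
  ring

/-- constant sections -/
def cst (C : Coc n Γ) (π : Γ →* (H ≃ₗᵢ[ℝ] H)) : inv π →ₗ[ℝ] SM C π where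
  toFun η := ⟨fun _ _ _ => (η : H), sec_const η.2⟩
  map_add' _ _ := rfl
  map_smul' _ _ := rfl

theorem ip_cst_cst (P : PU C) (K : KM C) (η ξ : inv π) :
    ipT P K π (cst C π η) (cst C π ξ) = ⟪η, ξ⟫_ℝ * BInt P K (fun _ _ => 1) := by
  rw [ipT_apply, ← BInt_const]
  rfl

/-- sections orthogonal to the invariant vectors -/
def S0 (P : PU C) (K : KM C) (π : Γ →* (H ≃ₗᵢ[ℝ] H)) : Submodule ℝ (SM C π) where
  carrier := {s | ∀ η : inv π, ipT P K π s (cst C π η) = 0}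
  add_mem' := fun hs hv η => by rw [map_add, LinearMap.add_apply, hs η, hv η, add_zero]
  zero_mem' := fun η => by rw [map_zero, LinearMap.zero_apply]
  smul_mem' := fun c s hs η => by rw [map_smul, LinearMap.smul_apply, hs η, smul_zero]

theorem LT_cst (K : KM C) (η : inv π) : LT K π (cst C π η) = 0 := by
  apply Subtype.ext
  funext γ a z
  show LF K (fun _ _ _ => (η : H)) γ a z = 0
  by_cases hz : z ∈ C.Ω a
  · rw [LF_mem hz]
    exact lapH_const _ _ _
  · simp only [LF, indicator_of_notMem hz]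

/-- the Laplacian of a section with periods is orthogonal to the invariant vectors -/
theorem lap_S0 [CompleteSpace H] (h2 : T2Stmt) (P : PU C) (K : KM C) {b : Γ → H}
    {u : Γ → C.I → Cm n → H} (hu : Sec C π b u) :
    (⟨LF K u, sec_LF K hu⟩ : SM C π) ∈ S0 P K π := by
  intro η
  show BInt P K (fun a z => ⟪LF K u 1 a z, (η : H)⟫_ℝ) = 0
  rw [BInt_LF P K u (fun _ _ => (η : H)),
    (h2 n Γ C P K H π b u hu).1 (fun _ _ _ => (η : H)) (sec_const η.2), neg_eq_zero]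
  exact BInt_zero P K fun a z _ => grH_const _ _ _

theorem LT_S0 [CompleteSpace H] (h2 : T2Stmt) (P : PU C) (K : KM C) (s : SM C π) :
    LT K π s ∈ S0 P K π := lap_S0 h2 P K s.2

/-- projection -/
theorem exists_proj [FiniteDimensional ℝ H] (P : PU C) (K : KM C) (v : SM C π) :
    ∃ w : inv π, v - cst C π w ∈ S0 P K π := by
  have hV := BInt_one_pos P K
  set V := BInt P K (fun _ _ => 1) with hVdef
  have : CompleteSpace (inv π) := FiniteDimensional.complete ℝ _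
  let l : inv π →ₗ[ℝ] ℝ := (ipT P K π v).comp (cst C π)
  obtain ⟨w, hw⟩ : ∃ w : inv π, ∀ η : inv π, ⟪w, η⟫_ℝ = l η :=
    ⟨(InnerProductSpace.toDual ℝ (inv π)).symm (LinearMap.toContinuousLinearMap l), fun η => by
      rw [InnerProductSpace.toDual_symm_apply]
      rfl⟩
  refine ⟨V⁻¹ • w, fun η => ?_⟩
  rw [map_sub, LinearMap.sub_apply, ip_cst_cst, ← hVdef, real_inner_smul_left, hw]
  show l η - V⁻¹ * l η * V = 0
  field_simp
  ring

/-- dense range on the orthogonal complement -/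
theorem dens_S0 [FiniteDimensional ℝ H] (h2 : T2Stmt) (h3 : T3Stmt) (P : PU C) (K : KM C)
    (π : Γ →* (H ≃ₗᵢ[ℝ] H)) :
    ∃ l₀ : ℝ, 0 < l₀ ∧ ∀ l, l₀ ≤ l → ∀ f : S0 P K π, ∀ δ : ℝ, 0 < δ → ∃ v : S0 P K π,
      ipT P K π (l • (v : SM C π) - LT K π v - f) (l • (v : SM C π) - LT K π v - f) < δ := by
  have : CompleteSpace H := FiniteDimensional.complete ℝ H
  obtain ⟨l₀, hl₀, h⟩ := dens_SM h3 P K π
  refine ⟨l₀, hl₀, fun l hl f δ hδ => ?_⟩
  obtain ⟨v, hv⟩ := h l hl f δ hδ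
  obtain ⟨w, hw⟩ := exists_proj P K v
  refine ⟨⟨v - cst C π w, hw⟩, lt_of_le_of_lt ?_ hv⟩
  have e1 : l • (v - cst C π w) - LT K π (v - cst C π w) - (f : SM C π) =
      (l • v - LT K π v - f) - l • cst C π w := by
    rw [map_sub, LT_cst, sub_zero, smul_sub]
    abel
  have e2 : ipT P K π v (cst C π w) = ipT P K π (cst C π w) (cst C π w) := by
    have := hw w
    rw [map_sub, LinearMap.sub_apply] at this
    linarith
  have e3 : ipT P K π (l • v - LT K π v - f) (cst C π w) =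
      l * ipT P K π (cst C π w) (cst C π w) := by
    rw [map_sub, map_sub, map_smul, LinearMap.sub_apply, LinearMap.sub_apply,
      LinearMap.smul_apply, LT_S0 h2 P K v w, f.2 w, e2, smul_eq_mul]
    ring
  show ipT P K π (l • (v - cst C π w) - LT K π (v - cst C π w) - (f : SM C π))
    (l • (v - cst C π w) - LT K π (v - cst C π w) - (f : SM C π)) ≤ _
  rw [e1]
  set X := l • v - LT K π v - (f : SM C π) with hX
  have e4 : ipT P K π (X - l • cst C π w) (X - l • cst C π w) =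
      ipT P K π X X - l ^ 2 * ipT P K π (cst C π w) (cst C π w) := by
    simp only [map_sub, LinearMap.sub_apply, map_smul, LinearMap.smul_apply, smul_eq_mul]
    rw [ipT_symm P K (cst C π w) X, e3]
    ring
  rw [e4]
  have := mul_nonneg (sq_nonneg l) (ipT_nonneg P K (cst C π w))
  linarith

/-- the Poincaré inequality on the orthogonal complement -/
theorem poin_S0 [FiniteDimensional ℝ H] (h2 : T2Stmt) (h4 : T4FStmt) (P : PU C) (K : KM C)
    (π : Γ →* (H ≃ₗᵢ[ℝ] H)) (h : ℕ → S0 P K π)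
    (hB : ∃ B : ℝ, ∀ j, ipT P K π (h j) (h j) ≤ B)
    (hE : Tendsto (fun j => enT P K π (h j) (h j)) atTop (𝓝 0)) :
    Tendsto (fun j => ipT P K π (h j) (h j)) atTop (𝓝 0) := by
  have : CompleteSpace H := FiniteDimensional.complete ℝ H
  have e1 : ∀ j, ipT P K π (h j) (h j) = BInt P K (fun a z => ‖(h j).1.1 1 a z‖ ^ 2) := fun j =>
    ipT_self P K _
  have e2 : ∀ j, enT P K π (h j) (h j) = BInt P K
      (fun a z => grH (K.w a) ((h j).1.1 1 a) ((h j).1.1 1 a) z) := fun j => enT_eq h2 P K _ _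
  simp only [e1] at hB ⊢
  simp only [e2] at hE
  exact h4 n Γ C P K H π (fun j => (h j).1.1) (fun j => (h j).1.2)
    (fun j η hη => (h j).2 ⟨η, hη⟩) hB hE

theorem poin_const [FiniteDimensional ℝ H] (h2 : T2Stmt) (h4 : T4FStmt) (P : PU C) (K : KM C)
    (π : Γ →* (H ≃ₗᵢ[ℝ] H)) :
    ∃ c : ℝ, 0 < c ∧ ∀ v : S0 P K π, ipT P K π v v ≤ c * enT P K π v v := by
  have : CompleteSpace H := FiniteDimensional.complete ℝ H
  by_contra hcon
  push Not at hcon
  have h1 : ∀ j : ℕ, ∃ v : S0 P K π, ((j : ℝ) + 1) * enT P K π v v < ipT P K π v v := fun j =>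
    hcon _ (by positivity)
  choose v hv using h1
  have hen : ∀ j, 0 ≤ enT P K π (v j) (v j) := fun j => enT_nonneg h2 P K _
  have hip : ∀ j, 0 < ipT P K π (v j) (v j) := fun j => lt_of_le_of_lt
    (mul_nonneg (by positivity) (hen j)) (hv j)
  set t : ℕ → ℝ := fun j => (√(ipT P K π (v j) (v j)))⁻¹ with ht
  have ht2 : ∀ j, t j ^ 2 * ipT P K π (v j) (v j) = 1 := by
    intro j
    rw [ht, inv_pow, Real.sq_sqrt (hip j).le, inv_mul_cancel₀ (hip j).ne']
  have e1 : ∀ j, ipT P K π ((t j • v j : S0 P K π) : SM C π) ((t j • v j : S0 P K π) : SM C π) =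
      1 := by
    intro j
    rw [← ht2 j, Submodule.coe_smul]
    simp only [map_smul, LinearMap.smul_apply, smul_eq_mul]
    ring
  have e2 : ∀ j, enT P K π ((t j • v j : S0 P K π) : SM C π) ((t j • v j : S0 P K π) : SM C π) =
      t j ^ 2 * enT P K π (v j) (v j) := by
    intro j
    rw [Submodule.coe_smul]
    simp only [map_smul, LinearMap.smul_apply, smul_eq_mul]
    ring
  have e3 := poin_S0 h2 h4 P K π (fun j => t j • v j) ⟨1, fun j => (e1 j).le⟩ (by
    refine squeeze_zero (fun j => ?_) (fun j => ?_) tendsto_one_div_add_atTop_nhds_zero_nat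
    · rw [e2]
      exact mul_nonneg (sq_nonneg _) (hen j)
    · rw [e2, le_div_iff₀ (by positivity)]
      have h1 := mul_le_mul_of_nonneg_left (hv j).le (sq_nonneg (t j))
      rw [ht2 j] at h1
      calc t j ^ 2 * enT P K π (v j) (v j) * ((j : ℝ) + 1) =
          t j ^ 2 * (((j : ℝ) + 1) * enT P K π (v j) (v j)) := by ring
        _ ≤ 1 := h1)
  simp only [e1] at e3
  have := tendsto_nhds_unique e3 (tendsto_const_nhds (x := (1 : ℝ)))
  norm_num at this

/-- almost solutions of `Δ v = - α` -/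
theorem exists_v [FiniteDimensional ℝ H] (h2 : T2Stmt) (h3 : T3Stmt) (h4 : T4FStmt)
    (hRes : ResStmt) (P : PU C) (K : KM C) {α : SM C π} (hα : α ∈ S0 P K π) (δ : ℝ)
    (hδ : 0 < δ) : ∃ v : S0 P K π,
      ipT P K π (LT K π v + α) (LT K π v + α) < δ := by
  have : CompleteSpace H := FiniteDimensional.complete ℝ H
  exact res_sub hRes (ipT P K π) (enT P K π) (LT K π) (S0 P K π) (LT_S0 h2 P K)
    (ipT_symm P K) (ipT_nonneg P K) (enT_symm h2 P K) (enT_nonneg h2 P K) (ip_LT P K)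
    (dens_S0 h2 h3 P K π) (poin_S0 h2 h4 P K π) hα hδ

/-- bounds of the almost solutions -/
theorem bd_v [CompleteSpace H] (P : PU C) (K : KM C) {α : SM C π} {c : ℝ} (hc : 0 < c)
    {v : SM C π} (hp : ipT P K π v v ≤ c * enT P K π v v)
    (hv : ipT P K π (LT K π v + α) (LT K π v + α) ≤ 1) :
    enT P K π v v ≤ c * (2 + 2 * ipT P K π α α) ∧
      ipT P K π v v ≤ c * (c * (2 + 2 * ipT P K π α α)) := by
  set A : ℝ := 2 + 2 * ipT P K π α α with hA
  have hLv : ipT P K π (LT K π v) (LT K π v) ≤ A := by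
    have h3' := ipT_nonneg P K (LT K π v + (2 : ℝ) • α)
    simp only [map_add, LinearMap.add_apply, map_smul, LinearMap.smul_apply, smul_eq_mul] at hv h3'
    rw [ipT_symm P K α (LT K π v)] at hv h3'
    rw [hA]
    linarith
  have hen : enT P K π v v ≤ c * A := by
    have h3' := ipT_nonneg P K (c • LT K π v + v)
    simp only [map_add, LinearMap.add_apply, map_smul, LinearMap.smul_apply, smul_eq_mul] at h3'
    rw [ipT_symm P K v (LT K π v)] at h3'
    have h4' : enT P K π v v = -(ipT P K π (LT K π v) v) := rfl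
    have h5 := mul_le_mul_of_nonneg_left hLv (mul_nonneg hc.le hc.le)
    rw [h4'] at hp ⊢
    set y := ipT P K π (LT K π v) v
    have h7 : c * -y ≤ c * (c * A) := by
      nlinarith
    exact le_of_mul_le_mul_left h7 hc
  exact ⟨hen, hp.trans (mul_le_mul_of_nonneg_left hen hc.le)⟩

theorem nsq_bd (P : PU C) (K : KM C) {b : Γ → H} {u₀ : Γ → C.I → Cm n → H}
    (hu₀ : Sec C π b u₀) (v : SM C π) :
    BInt P K (fun a z => ‖u₀ 1 a z + v.1 1 a z‖ ^ 2) ≤
      2 * BInt P K (fun a z => ‖u₀ 1 a z‖ ^ 2) + 2 * ipT P K π v v := by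
  have c0 : ∀ a, ContinuousOn (u₀ 1 a) (C.Ω a) := fun a z hz =>
    (hu₀.smooth 1 a z hz).continuousAt.continuousWithinAt
  have cv : ∀ a, ContinuousOn (v.1 1 a) (C.Ω a) := fun a z hz =>
    (v.2.smooth 1 a z hz).continuousAt.continuousWithinAt
  rw [ipT_self, ← BInt_comb' P K (F := fun a z => ‖u₀ 1 a z‖ ^ 2)
    (G := fun a z => ‖v.1 1 a z‖ ^ 2) (fun a => (c0 a).norm.pow 2) (fun a => (cv a).norm.pow 2) 2 2]
  refine BInt_mono' P K (fun a => ((c0 a).add (cv a)).norm.pow 2)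
    (fun a => (continuousOn_const.mul ((c0 a).norm.pow 2)).add
      (continuousOn_const.mul ((cv a).norm.pow 2))) fun a z _ => ?_
  have h1 := norm_add_le (u₀ 1 a z) (v.1 1 a z)
  have h2' : ‖u₀ 1 a z + v.1 1 a z‖ ^ 2 ≤ (‖u₀ 1 a z‖ + ‖v.1 1 a z‖) ^ 2 :=
    pow_le_pow_left₀ (norm_nonneg _) h1 2
  nlinarith [sq_nonneg (‖u₀ 1 a z‖ - ‖v.1 1 a z‖)]

theorem gr_bd [CompleteSpace H] (h2 : T2Stmt) (P : PU C) (K : KM C) {b : Γ → H}
    {u₀ : Γ → C.I → Cm n → H} (hu₀ : Sec C π b u₀) (v : SM C π) :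
    BInt P K (fun a z => grH (K.w a) (fun y => u₀ 1 a y + v.1 1 a y)
      (fun y => u₀ 1 a y + v.1 1 a y) z) ≤
      2 * BInt P K (fun a z => grH (K.w a) (u₀ 1 a) (u₀ 1 a) z) + 2 * enT P K π v v := by
  have g0 : ∀ a, ContinuousOn (fun z => grH (K.w a) (u₀ 1 a) (u₀ 1 a) z) (C.Ω a) := fun a =>
    grH_cont K (hu₀.smooth 1 a) (hu₀.smooth 1 a)
  have gv : ∀ a, ContinuousOn (fun z => grH (K.w a) (v.1 1 a) (v.1 1 a) z) (C.Ω a) :=
    fun a => grH_cont K (v.2.smooth 1 a) (v.2.smooth 1 a)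
  have hs : ∀ a, ∀ z ∈ C.Ω a, ContDiffAt ℝ ∞ (fun y => u₀ 1 a y + v.1 1 a y) z := fun a z hz =>
    (hu₀.smooth 1 a z hz).add (v.2.smooth 1 a z hz)
  rw [enT_eq h2, ← BInt_comb' P K (F := fun a z => grH (K.w a) (u₀ 1 a) (u₀ 1 a) z)
    (G := fun a z => grH (K.w a) (v.1 1 a) (v.1 1 a) z) g0 gv 2 2]
  refine BInt_mono' P K (fun a => grH_cont K (hs a) (hs a))
    (fun a => (continuousOn_const.mul (g0 a)).add
      (continuousOn_const.mul (gv a))) fun a z hz => ?_
  have hz' := V_sub_Ω C a hz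
  exact grH_add_le ((K.ku a).pos z hz') (hu₀.smooth 1 a z hz') (v.2.smooth 1 a z hz')

theorem hh_bd [CompleteSpace H] (h2 : T2Stmt) (P : PU C) (K : KM C) {b : Γ → H}
    {u₀ : Γ → C.I → Cm n → H} (hu₀ : Sec C π b u₀) (v : SM C π) :
    0 ≤ BInt P K (fun a z => hhH (K.w a) (fun y => u₀ 1 a y + v.1 1 a y)
      (fun y => u₀ 1 a y + v.1 1 a y) z) ∧
    BInt P K (fun a z => hhH (K.w a) (fun y => u₀ 1 a y + v.1 1 a y)
      (fun y => u₀ 1 a y + v.1 1 a y) z) ≤
      ipT P K π (LT K π v + ⟨LF K u₀, sec_LF K hu₀⟩) (LT K π v + ⟨LF K u₀, sec_LF K hu₀⟩) := by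
  have hu : Sec C π b (fun γ a z => u₀ γ a z + v.1 γ a z) := by
    have := sec_add hu₀ v.2
    rwa [add_zero] at this
  constructor
  · refine BInt_nonneg P K fun a z hz => ?_
    have hz' := V_sub_Ω C a hz
    exact hhH_nonneg H730.V.vpStmt ((K.ku a).pos z hz') (hu.smooth 1 a z hz')
  · refine ((h2 n Γ C P K H π b _ hu).2).trans (le_of_eq ?_)
    rw [ipT_self]
    refine BInt_congr P K fun a z hz => ?_
    have hz' := V_sub_Ω C a hz
    have e1 : (LT K π v + ⟨LF K u₀, sec_LF K hu₀⟩ : SM C π).1 1 a z =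
      LF K v.1 1 a z + LF K u₀ 1 a z := rfl
    rw [e1, LF_mem hz', LF_mem hz', lapH_add _ (hu₀.smooth 1 a z hz')
      (v.2.smooth 1 a z hz'), add_comm]

end

theorem t9Stmt : T9Stmt := by
  intro h2 h3 h4 hRes h6 h9 n Γ _ C P K H _ _ _ π b hb
  have : CompleteSpace H := FiniteDimensional.complete ℝ H
  obtain ⟨u₀, hu₀⟩ := h6 n Γ C P H π b hb
  obtain ⟨c, hc, hpoin⟩ := poin_const h2 h4 P K π
  choose v hv using fun j : ℕ => exists_v h2 h3 h4 hRes P K (lap_S0 h2 P K hu₀)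
    (1 / ((j : ℝ) + 1)) (by positivity)
  have hv1 : ∀ j : ℕ, (1 : ℝ) / ((j : ℝ) + 1) ≤ 1 := fun j => by
    rw [div_le_one (by positivity)]
    have : (0 : ℝ) ≤ j := Nat.cast_nonneg j
    linarith
  have hbd := fun j => bd_v P K hc (hpoin (v j)) ((hv j).le.trans (hv1 j))
  have hu : ∀ j, Sec C π b (fun γ a z => u₀ γ a z + (v j).1.1 γ a z) := by
    intro j
    have := sec_add hu₀ (v j).1.2
    rwa [add_zero] at this
  exact h9 n Γ C P K H π b (fun j γ a z => u₀ γ a z + (v j).1.1 γ a z) hu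
    ⟨_, fun j => (nsq_bd P K hu₀ (v j).1).trans
      (add_le_add_right (mul_le_mul_of_nonneg_left (hbd j).2 zero_le_two) _)⟩
    ⟨_, fun j => (gr_bd h2 P K hu₀ (v j).1).trans
      (add_le_add_right (mul_le_mul_of_nonneg_left (hbd j).1 zero_le_two) _)⟩
    (squeeze_zero (fun j => (hh_bd h2 P K hu₀ (v j).1).1)
      (fun j => (hh_bd h2 P K hu₀ (v j).1).2.trans (hv j).le)
      tendsto_one_div_add_atTop_nhds_zero_nat)

end Vale.Agent.P284.H977.T
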