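import Vale.Agent.P284.H977.T.T8
import Vale.Agent.P284.H977.T.T9
import Vale.Agent.P284.H119.TKg
import Vale.Agent.P284.H730.T3
import Vale.Agent.P284.H10.T4
import Vale.Agent.P284.H639.T4F
import Vale.Agent.P284.H639.T6S
import Vale.Agent.P284.H639.V15
import Vale.Agent.P284.H731.T5
import Vale.Agent.P284.H731.Res
import Vale.Agent.P284.H287.T.T7
import Vale.Agent.P284.H913.LimF
import Vale.Agent.P284.H35.T9E
import Vale.Agent.P284.H35.T10GS
import Vale.Agent.P284.H10.T10c
import Vale.Agent.P284.H446.TK
import Vale.Agent.P284.H894.S.Final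

/-! # P284, theorem T (helper977): closing the rows -/

noncomputable section

namespace Vale.Agent.P284.H977.T

open Vale.Agent.P284.H409.T

/-- nonconstant pluriharmonic functions on a covering with non-Kazhdan group -/
theorem part1T : Part1T :=
  t8Stmt H119.T.t2Stmt H730.T.t3Stmt H10.T4.t4Stmt H731.T.t5Stmt H639.T6.t6Stmt H287.T.t7Concl
    H639.V.v15Stmt

/-- Hodge theorem for finite-dimensional orthogonal representations, on the pieces -/
theorem hodgeP : HodgeP :=
  t9Stmt H119.T.t2Stmt H730.T.t3Stmt H639.T4F.t4FStmt H731.Res.resStmt H639.T6.t6UStmt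
    H913.LF.t9LStmt

/-- Hodge theorem for finite-dimensional orthogonal representations -/
theorem hodgeE : HodgeE := H35.T.t9eStmt hodgeP

theorem t10cConcl : T10cConcl :=
  H10.T.t10cStmt part1T H639.V.v15Stmt hodgeE H10.T.t10bStmt H35.T.t10gStmt

/-- the kernel of the period map -/
theorem kerTConcl : KerTConcl := H446.TK.tkStmt t10cConcl

/-- Theorem T on a simply connected covering -/
theorem mainT : MainT :=
  mainT_of H894.W.albStmt2 H446.Ker.kerStmt H731.Lat.latStmt H119.R.rankStmt2 H977.liftStmt
    kerTConcl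

/-- Theorem T -/
theorem mainPiT : MainPiT := H894.S.piTStmt mainT

end Vale.Agent.P284.H977.T
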