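import Vale.Agent.P284.H977.T.Close0
import Mathlib.Order.Filter.Ultrafilter.Basic
import Mathlib.Analysis.SpecificLimits.Basic

/-!
# P284, theorem T, row T9 (helper977): the limit of almost pluriharmonic functions, without
normalisation
-/

open scoped Manifold ContDiff Topology Pointwise ComplexConjugate ComplexOrder
open Filter Set Metric MeasureTheory

noncomputable section

namespace Vale.Agent.P284.H977.T

open Vale.Agent.P272.K Vale.Agent.P284.H894 Vale.Agent.P284.H894.V Vale.Agent.P284.H35.V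

variable {n : ℕ} {Γ : Type} [Group Γ] {C : Coc n Γ} {δ : ℝ} {η : Cm n → ℝ} {B C₁ : ℝ}

theorem lim0 (hδ0 : 0 < δ) (hδ : ∀ a, 4 * δ ≤ C.r a) (hM : MolP n δ η B)
    {𝒰 : Ultrafilter ℕ} {v : ℕ → Γ → C.I → Cm n → ℝ} {ε : ℕ → ℝ}
    (hv : ∀ k, App0 C η C₁ (ε k) (v k)) (hε : Tendsto ε (𝒰 : Filter ℕ) (𝓝 0))
    (hbd : ∀ γ a, ∃ M : ℝ, ∀ k, ∀ z ∈ ball (C.c a) (11 / 4 * C.r a), |mo η (v k γ a) z| ≤ M) :
    ∃ U : Γ → C.I → Cm n → ℝ, (∀ γ a, ContDiff ℝ ∞ (U γ a)) ∧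
      (∀ γ a, ∀ z ∈ ball (C.c a) (9 / 4 * C.r a), cHess (U γ a) z = 0 ∧
        Tendsto (fun k => mo η (v k γ a) z) (𝒰 : Filter ℕ) (𝓝 (U γ a z))) ∧
      (∀ γ a b z, z ∈ C.O a b → z ∈ ball (C.c a) (2 * C.r a) →
        C.T a b z ∈ ball (C.c b) (2 * C.r b) → U γ a z = U (γ * C.κ a b z) b (C.T a b z)) ∧
      ∀ γ a, ∀ z ∈ ball (C.c a) (2 * C.r a), ‖fderiv ℝ (U γ a) z‖ ≤ √(B * C₁) := by
  set L := √(B * C₁) with hL
  have hL0 : 0 ≤ L := Real.sqrt_nonneg _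
  set m : ℕ → Γ → C.I → Cm n → ℝ := fun k γ a z => mo η (v k γ a) z with hm
  -- pointwise limits
  have hlim0 : ∀ γ a z, ∃ x : ℝ, z ∈ ball (C.c a) (11 / 4 * C.r a) →
      Tendsto (fun k => m k γ a z) (𝒰 : Filter ℕ) (𝓝 x) := by
    intro γ a z
    by_cases hz : z ∈ ball (C.c a) (11 / 4 * C.r a)
    · obtain ⟨M, hMM⟩ := hbd γ a
      have h2 : ∀ᶠ k in (𝒰 : Filter ℕ), m k γ a z ∈ Icc (-M) M :=
        Eventually.of_forall fun k => abs_le.1 (hMM k z hz)
      obtain ⟨x, -, hx⟩ := isCompact_Icc.ultrafilter_le_nhds (𝒰.map fun k => m k γ a z)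
        (le_principal_iff.2 h2)
      exact ⟨x, fun _ => hx⟩
    · exact ⟨0, fun h => absurd h hz⟩
  choose Φ hΦ using hlim0
  -- properties of the sequence
  have hs : ∀ k γ a, ∀ z ∈ ball (C.c a) (11 / 4 * C.r a), ContDiffAt ℝ ∞ (m k γ a) z :=
    fun k γ a z hz => (hv k).smooth_mo hM hδ γ a z hz
  have hlip : ∀ k γ a, ∀ z ∈ ball (C.c a) (11 / 4 * C.r a),
      ∀ z' ∈ ball (C.c a) (11 / 4 * C.r a), |m k γ a z - m k γ a z'| ≤ L * ‖z - z'‖ :=
    fun k γ a z hz z' hz' => (hv k).lip hM hδ γ a z hz z' hz'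
  have hD2 : ∀ k γ a, ∀ z ∈ ball (C.c a) (11 / 4 * C.r a),
      D2 (m k γ a) z ≤ B * ε k := by
    intro k γ a z hz
    have hr := C.r_pos a
    have hd := hδ a
    have e2 := (hM.2.2.2.2.2 (C.c a) (11 / 4 * C.r a) (3 * C.r a) (by positivity) (by linarith) _
      ((hv k).cdOn γ a)).2.2.2.2.1 z hz
    exact e2.trans (mul_le_mul_of_nonneg_left ((hv k).d2 γ a) hM.1.le)
  have hBε : Tendsto (fun k : ℕ => B * ε k) (𝒰 : Filter ℕ) (𝓝 0) := by
    simpa using hε.const_mul B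
  have hloc : ∀ γ a, _ := fun γ a => limit_local (C.r_pos a) hδ0 (hδ a) hM hL0
    (fun k => hs k γ a) (fun k => hlip k γ a) (fun k => hD2 k γ a) hBε (fun z hz => hΦ γ a z hz)
  set U : Γ → C.I → Cm n → ℝ := fun γ a =>
    mo η ((closedBall (C.c a) (5 / 2 * C.r a)).indicator (Φ γ a)) with hU
  have hUs : ∀ γ a, ContDiff ℝ ∞ (U γ a) := fun γ a => (hloc γ a).1
  have hUΦ : ∀ γ a, ∀ z ∈ ball (C.c a) (9 / 4 * C.r a), U γ a z = Φ γ a z := fun γ a =>
    (hloc γ a).2.1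
  have h2 : ∀ a, ∀ z ∈ ball (C.c a) (2 * C.r a), z ∈ ball (C.c a) (9 / 4 * C.r a) := fun a z hz =>
    ball_subset_ball (by linarith [C.r_pos a]) hz
  have h3 : ∀ a, ∀ z ∈ ball (C.c a) (9 / 4 * C.r a), z ∈ ball (C.c a) (11 / 4 * C.r a) :=
    fun a z hz => ball_subset_ball (by linarith [C.r_pos a]) hz
  have hΦlip : ∀ γ a, ∀ z ∈ ball (C.c a) (11 / 4 * C.r a),
      ∀ z' ∈ ball (C.c a) (11 / 4 * C.r a), |Φ γ a z - Φ γ a z'| ≤ L * ‖z - z'‖ := by
    intro γ a z hz z' hz'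
    exact le_of_tendsto ((hΦ γ a z hz).sub (hΦ γ a z' hz')).abs
      (Eventually.of_forall fun k => hlip k γ a z hz z' hz')
  refine ⟨U, hUs, fun γ a z hz => ⟨(hloc γ a).2.2 z hz, ?_⟩, ?_, ?_⟩
  · rw [hUΦ γ a z hz]
    exact hΦ γ a z (h3 a z hz)
  · -- compatibility
    intro γ a b z hz hza hzb
    rw [hUΦ γ a z (h2 a z hza), hUΦ _ b _ (h2 b _ hzb)]
    have e1 := hΦ γ a z (h3 a z (h2 a z hza))
    have e2 := hΦ (γ * C.κ a b z) b (C.T a b z) (h3 b _ (h2 b _ hzb))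
    have e3 := (e1.sub e2).abs
    have e4 : |Φ γ a z - Φ (γ * C.κ a b z) b (C.T a b z)| ≤ 0 := by
      refine le_of_forall_pos_le_add fun κ hκ => ?_
      rw [zero_add]
      obtain ⟨ε₀, hε₀, hcl⟩ := close0 hM hδ C₁ hz hza hzb hκ
      refine le_of_tendsto e3 ?_
      filter_upwards [hε.eventually (ge_mem_nhds hε₀)] with k hk
      exact hcl _ hk (v k) (hv k) γ
    have e5 := abs_eq_zero.1 (le_antisymm e4 (abs_nonneg _))
    linarith
  · -- the gradient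
    intro γ a z hz
    refine norm_fderiv_le_of_lip' ℝ hL0 ?_
    filter_upwards [isOpen_ball.mem_nhds (h2 a z hz)] with y hy
    rw [Real.norm_eq_abs, hUΦ γ a y hy, hUΦ γ a z (h2 a z hz)]
    exact hΦlip γ a y (h3 a y hy) z (h3 a z (h2 a z hz))

/-- a bound of the mollified function by the `L²` norm -/
theorem mo_bd {δ : ℝ} (hδ : ∀ a, 4 * δ ≤ C.r a) (hM : MolP n δ η B) (hC₁ : 0 ≤ C₁) {ε Q : ℝ}
    {v : Γ → C.I → Cm n → ℝ} (hv : App0 C η C₁ ε v) (γ : Γ) (a : C.I)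
    (hQ : ∫ z in C.V a, v γ a z ^ 2 ≤ Q) : ∀ z ∈ ball (C.c a) (11 / 4 * C.r a),
      mo η (v γ a) z ^ 2 ≤ (4 * Q + 4 * (B * ε)) / (volume (ball (C.c a) (2 * C.r a))).toReal +
        2 * (√(B * C₁) * (6 * C.r a)) ^ 2 := by
  intro z hz
  have hr := C.r_pos a
  set S := ball (C.c a) (2 * C.r a) with hS
  have hSv : volume S ≠ ⊤ := measure_ball_lt_top.ne
  have hSp : 0 < (volume S).toReal :=
    ENNReal.toReal_pos (measure_ball_pos volume _ (by positivity)).ne' hSv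
  have hSV : S ⊆ C.V a := ball_subset_ball (by linarith)
  have hS11 : ∀ y ∈ closedBall (C.c a) (2 * C.r a), y ∈ ball (C.c a) (11 / 4 * C.r a) :=
    fun y hy => closedBall_subset_ball (by linarith) hy
  have hvc : ContinuousOn (v γ a) (closedBall (C.c a) (2 * C.r a)) := fun y hy =>
    (hv.cdOn γ a y (closedBall_subset_closedBall (by linarith) hy)).continuousAt.continuousWithinAt
  have hvV : IntegrableOn (fun y => v γ a y ^ 2) (C.V a) := by
    have h1 : ContinuousOn (fun y => v γ a y ^ 2) (closedBall (C.c a) (3 * C.r a)) := fun y hy =>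
      ((hv.cdOn γ a y hy).continuousAt.pow 2).continuousWithinAt
    exact (h1.integrableOn_compact (isCompact_closedBall _ _)).mono_set ball_subset_closedBall
  have hmc : ContinuousOn (mo η (v γ a)) (closedBall (C.c a) (2 * C.r a)) := fun y hy =>
    (hv.smooth_mo hM hδ γ a y (hS11 y hy)).continuousAt.continuousWithinAt
  have i1 : IntegrableOn (fun y => v γ a y ^ 2) S := hvV.mono_set hSV
  have i2 := hv.diff_int hM hδ γ a
  have i0 : IntegrableOn (fun _ : Cm n => mo η (v γ a) z ^ 2) S := integrableOn_const hSv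
  have h1 : ∀ y ∈ S, mo η (v γ a) z ^ 2 ≤ (4 * v γ a y ^ 2 + 4 * (v γ a y - mo η (v γ a) y) ^ 2) +
      2 * (√(B * C₁) * (6 * C.r a)) ^ 2 := by
    intro y hy
    have hy' := hS11 y (ball_subset_closedBall hy)
    have e1 := hv.lip hM hδ γ a z hz y hy'
    have e2 : ‖z - y‖ ≤ 6 * C.r a := by
      rw [← dist_eq_norm]
      have h1 := mem_ball.1 hz
      have h2 := mem_ball.1 hy'
      have h3 := dist_triangle_right z y (C.c a)
      linarith
    have e3 : |mo η (v γ a) z - mo η (v γ a) y| ≤ √(B * C₁) * (6 * C.r a) :=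
      e1.trans (mul_le_mul_of_nonneg_left e2 (Real.sqrt_nonneg _))
    have e4 : (mo η (v γ a) z - mo η (v γ a) y) ^ 2 ≤ (√(B * C₁) * (6 * C.r a)) ^ 2 := by
      rw [← sq_abs]; exact pow_le_pow_left₀ (abs_nonneg _) e3 2
    nlinarith [sq_nonneg (mo η (v γ a) z - 2 * mo η (v γ a) y),
      sq_nonneg (2 * v γ a y - mo η (v γ a) y), sq_nonneg (v γ a y + (v γ a y - mo η (v γ a) y))]
  have h2 : ∫ y in S, mo η (v γ a) z ^ 2 ≤ ∫ y in S,
      ((4 * v γ a y ^ 2 + 4 * (v γ a y - mo η (v γ a) y) ^ 2) +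
        2 * (√(B * C₁) * (6 * C.r a)) ^ 2) :=
    setIntegral_mono_on i0 (((i1.const_mul 4).add (i2.const_mul 4)).add (integrableOn_const hSv))
      measurableSet_ball h1
  have i3 : IntegrableOn (fun y => 4 * v γ a y ^ 2 + 4 * (v γ a y - mo η (v γ a) y) ^ 2) S :=
    (i1.const_mul 4).add (i2.const_mul 4)
  rw [integral_add i3 (integrableOn_const hSv),
    integral_add (i1.const_mul 4) (i2.const_mul 4), integral_const_mul, integral_const_mul,
    setIntegral_const, setIntegral_const, measureReal_def, smul_eq_mul, smul_eq_mul] at h2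
  have h3 : ∫ y in S, v γ a y ^ 2 ≤ Q := by
    refine le_trans ?_ hQ
    exact setIntegral_mono_set hvV (Eventually.of_forall fun y => sq_nonneg _) hSV.eventuallyLE
  have h4 := hv.diff_le hM hδ γ a
  have h5 : (volume S).toReal * mo η (v γ a) z ^ 2 ≤ (4 * Q + 4 * (B * ε)) +
      (volume S).toReal * (2 * (√(B * C₁) * (6 * C.r a)) ^ 2) := by linarith
  have h6 : mo η (v γ a) z ^ 2 - 2 * (√(B * C₁) * (6 * C.r a)) ^ 2 ≤
      (4 * Q + 4 * (B * ε)) / (volume S).toReal := by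
    rw [le_div_iff₀ hSp]
    linarith
  linarith

end Vale.Agent.P284.H977.T
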