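import Vale.Agent.P284.H639.T6
import Vale.Agent.P284.H409.T.Spec
import Vale.Agent.P284.H66.GDiv
import Vale.Agent.P284.H287.T.Calc

/-!
# P284, theorem T (helper977): the module of sections with values in a Hilbert space
-/

open scoped Manifold ContDiff Topology Pointwise ComplexConjugate ComplexOrder InnerProductSpace
open Filter Set Metric MeasureTheory

noncomputable section

namespace Vale.Agent.P284.H977.T

open Vale.Agent.P272.K Vale.Agent.P284.H248 Vale.Agent.P284.H894 Vale.Agent.P284.H894.V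
  Vale.Agent.P284.H639.V Vale.Agent.P284.H639.Tw Vale.Agent.P284.H639.T6 Vale.Agent.P284.H913.V
  Vale.Agent.P284.H287.T Vale.Agent.P284.H359.V Vale.Agent.P284.H66 Vale.Agent.P284.H66.S7

/-! ### Linearity of the operators -/

section lin
variable {n : ℕ} {H : Type} [NormedAddCommGroup H] [InnerProductSpace ℝ H]
  {u v : Cm n → H} {z : Cm n}

theorem da (h : ContDiffAt ℝ ∞ u z) : DifferentiableAt ℝ u z := h.differentiableAt (by norm_num)

theorem ev_da (h : ContDiffAt ℝ ∞ u z) : ∀ᶠ y in 𝓝 z, DifferentiableAt ℝ u y := by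
  have h1 : ContDiffAt ℝ 1 u z := h.of_le (by norm_cast)
  filter_upwards [h1.eventually (by simp)] with y hy
  exact hy.differentiableAt (by norm_num)

theorem fd_sm (h : ContDiffAt ℝ ∞ u z) (x : Cm n) : ContDiffAt ℝ ∞ (fun y => fderiv ℝ u y x) z :=
  (h.fderiv_right (m := ∞) (by simp)).clm_apply contDiffAt_const

theorem dH_sm (h : ContDiffAt ℝ ∞ u z) (a : Fin n × Bool) :
    ContDiffAt ℝ ∞ (fun y => dH u y a) z := fd_sm h _

theorem ddH_sm (h : ContDiffAt ℝ ∞ u z) (a b : Fin n × Bool) :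
    ContDiffAt ℝ ∞ (fun y => ddH u y a b) z := fd_sm (fd_sm h _) _

theorem dH_add (hu : ContDiffAt ℝ ∞ u z) (hv : ContDiffAt ℝ ∞ v z) (a : Fin n × Bool) :
    dH (fun y => u y + v y) z a = dH u z a + dH v z a := by
  unfold dH
  rw [fderiv_fun_add (da hu) (da hv)]
  rfl

theorem ddH_add (hu : ContDiffAt ℝ ∞ u z) (hv : ContDiffAt ℝ ∞ v z) (a b : Fin n × Bool) :
    ddH (fun y => u y + v y) z a b = ddH u z a b + ddH v z a b := by
  unfold ddH
  have e : (fun y => fderiv ℝ (fun y => u y + v y) y (ev b)) =ᶠ[𝓝 z]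
      fun y => fderiv ℝ u y (ev b) + fderiv ℝ v y (ev b) := by
    filter_upwards [ev_da hu, ev_da hv] with y h1 h2
    rw [fderiv_fun_add h1 h2]
    rfl
  rw [e.fderiv_eq, fderiv_fun_add (da (fd_sm hu _)) (da (fd_sm hv _))]
  rfl

variable {G : Type} [NormedAddCommGroup G] [InnerProductSpace ℝ G]

theorem dH_clm (A : H →L[ℝ] G) (c : G) (hu : ContDiffAt ℝ ∞ u z) (a : Fin n × Bool) :
    dH (fun y => A (u y) + c) z a = A (dH u z a) := by
  unfold dH
  rw [fderiv_add_const]
  have := (A.hasFDerivAt (x := u z)).comp z (da hu).hasFDerivAt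
  have e : fderiv ℝ (fun y => A (u y)) z = A.comp (fderiv ℝ u z) := this.fderiv
  rw [e]
  rfl

theorem ddH_clm (A : H →L[ℝ] G) (c : G) (hu : ContDiffAt ℝ ∞ u z) (a b : Fin n × Bool) :
    ddH (fun y => A (u y) + c) z a b = A (ddH u z a b) := by
  unfold ddH
  have e : (fun y => fderiv ℝ (fun y => A (u y) + c) y (ev b)) =ᶠ[𝓝 z]
      fun y => A (fderiv ℝ u y (ev b)) + 0 := by
    filter_upwards [ev_da hu] with y h1
    rw [fderiv_add_const]
    have := (A.hasFDerivAt (x := u y)).comp y h1.hasFDerivAt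
    have e : fderiv ℝ (fun y => A (u y)) y = A.comp (fderiv ℝ u y) := this.fderiv
    rw [e, add_zero]
    rfl
  rw [e.fderiv_eq, fderiv_add_const]
  have := (A.hasFDerivAt (x := fderiv ℝ u z (ev b))).comp z (da (fd_sm hu (ev b))).hasFDerivAt
  have e : fderiv ℝ (fun y => A (fderiv ℝ u y (ev b))) z =
    A.comp (fderiv ℝ (fun y => fderiv ℝ u y (ev b)) z) := this.fderiv
  rw [e]
  rfl

theorem dH_smul (c : ℝ) (hu : ContDiffAt ℝ ∞ u z) (a : Fin n × Bool) :
    dH (fun y => c • u y) z a = c • dH u z a := by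
  have := dH_clm (c • ContinuousLinearMap.id ℝ H) 0 hu a
  simpa using this

theorem ddH_smul (c : ℝ) (hu : ContDiffAt ℝ ∞ u z) (a b : Fin n × Bool) :
    ddH (fun y => c • u y) z a b = c • ddH u z a b := by
  have := ddH_clm (c • ContinuousLinearMap.id ℝ H) 0 hu a b
  simpa using this

theorem dH_const (c : H) (a : Fin n × Bool) : dH (fun _ => c) z a = 0 := by
  unfold dH
  rw [fderiv_fun_const]
  rfl

variable (w : Cm n → Matrix (Fin n) (Fin n) ℂ)

theorem lapH_add (hu : ContDiffAt ℝ ∞ u z) (hv : ContDiffAt ℝ ∞ v z) :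
    lapH w (fun y => u y + v y) z = lapH w u z + lapH w v z := by
  unfold lapH
  simp only [ddH_add hu hv, smul_add, Finset.sum_add_distrib]

theorem lapH_smul (c : ℝ) (hu : ContDiffAt ℝ ∞ u z) :
    lapH w (fun y => c • u y) z = c • lapH w u z := by
  unfold lapH
  simp only [ddH_smul c hu, Finset.smul_sum]
  refine Finset.sum_congr rfl fun a _ => Finset.sum_congr rfl fun b _ => ?_
  rw [smul_comm]

theorem lapH_clm (A : H →L[ℝ] G) (c : G) (hu : ContDiffAt ℝ ∞ u z) :
    lapH w (fun y => A (u y) + c) z = A (lapH w u z) := by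
  unfold lapH
  simp only [ddH_clm A c hu, map_sum, map_smul]

theorem grH_add (hu : ContDiffAt ℝ ∞ u z) (hv : ContDiffAt ℝ ∞ v z) (x : Cm n → H) :
    grH w (fun y => u y + v y) x z = grH w u x z + grH w v x z := by
  unfold grH
  simp only [dH_add hu hv, inner_add_left, mul_add, Finset.sum_add_distrib]

theorem grH_add' (hu : ContDiffAt ℝ ∞ u z) (hv : ContDiffAt ℝ ∞ v z) (x : Cm n → H) :
    grH w x (fun y => u y + v y) z = grH w x u z + grH w x v z := by
  unfold grH
  simp only [dH_add hu hv, inner_add_right, mul_add, Finset.sum_add_distrib]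

theorem grH_smul (c : ℝ) (hu : ContDiffAt ℝ ∞ u z) (x : Cm n → H) :
    grH w (fun y => c • u y) x z = c * grH w u x z := by
  unfold grH
  simp only [dH_smul c hu, real_inner_smul_left, Finset.mul_sum]
  refine Finset.sum_congr rfl fun a _ => Finset.sum_congr rfl fun b _ => ?_
  ring

theorem grH_smul' (c : ℝ) (hu : ContDiffAt ℝ ∞ u z) (x : Cm n → H) :
    grH w x (fun y => c • u y) z = c * grH w x u z := by
  unfold grH
  simp only [dH_smul c hu, real_inner_smul_right, Finset.mul_sum]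
  refine Finset.sum_congr rfl fun a _ => Finset.sum_congr rfl fun b _ => ?_
  ring

theorem grH_const (x : Cm n → H) (c : H) : grH w x (fun _ => c) z = 0 := by
  unfold grH
  simp only [dH_const, inner_zero_right, mul_zero, Finset.sum_const_zero]

end lin

section glob
variable {n : ℕ} {Γ : Type} [Group Γ] {C : Coc n Γ} {H : Type} [NormedAddCommGroup H]
  [InnerProductSpace ℝ H] {π : Γ →* (H ≃ₗᵢ[ℝ] H)}

theorem sec_add {b b' : Γ → H} {u v : Γ → C.I → Cm n → H} (hu : Sec C π b u)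
    (hv : Sec C π b' v) : Sec C π (b + b') (fun γ a z => u γ a z + v γ a z) where
  smooth γ a z hz := (hu.smooth γ a z hz).add (hv.smooth γ a z hz)
  compat γ a b z hz := by rw [hu.compat γ a b z hz, hv.compat γ a b z hz]
  equi g γ a z hz := by
    rw [hu.equi g γ a z hz, hv.equi g γ a z hz, map_add, Pi.add_apply]
    abel

theorem sec_smul {u : Γ → C.I → Cm n → H} (c : ℝ) (hu : Sec C π 0 u) :
    Sec C π 0 (fun γ a z => c • u γ a z) where
  smooth γ a z hz := contDiffAt_const.smul (hu.smooth γ a z hz)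
  compat γ a b z hz := by rw [hu.compat γ a b z hz]
  equi g γ a z hz := by
    rw [hu.equi g γ a z hz, map_smul, Pi.zero_apply, add_zero, add_zero]

theorem sec_const {η : H} (hη : ∀ g, π g η = η) : Sec C π 0 (fun _ _ _ => η) where
  smooth γ a z hz := contDiffAt_const
  compat γ a b z hz := rfl
  equi g γ a z hz := by rw [hη, Pi.zero_apply, add_zero]

theorem sec_zero : Sec C π 0 (fun _ _ _ => (0 : H)) := sec_const fun g => map_zero _

/-- the module of equivariant sections -/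
def SM (C : Coc n Γ) (π : Γ →* (H ≃ₗᵢ[ℝ] H)) : Submodule ℝ (Γ → C.I → Cm n → H) where
  carrier := {s | Sec C π 0 s}
  add_mem' := fun hs hv => by
    have := sec_add hs hv
    rw [add_zero] at this
    exact this
  zero_mem' := sec_zero
  smul_mem' := fun c s hs => sec_smul c hs

theorem sec_congr {b : Γ → H} {u v : Γ → C.I → Cm n → H} (hu : Sec C π b u)
    (h : ∀ γ a, ∀ z ∈ C.Ω a, v γ a z = u γ a z) : Sec C π b v where
  smooth γ a z hz := (hu.smooth γ a z hz).congr_of_eventuallyEq (by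
    filter_upwards [(isOpen_Ω C a).mem_nhds hz] with y hy using h γ a y hy)
  compat γ a b z hz := by
    rw [h _ _ _ (O_sub_Ω C hz), h _ _ _ (T_mem_Ω C hz)]
    exact hu.compat γ a b z hz
  equi g γ a z hz := by
    rw [h _ _ _ hz, h _ _ _ hz]
    exact hu.equi g γ a z hz

/-- the inner product -/
def ipT (P : PU C) (K : KM C) (π : Γ →* (H ≃ₗᵢ[ℝ] H)) : SM C π →ₗ[ℝ] SM C π →ₗ[ℝ] ℝ :=
  LinearMap.mk₂ ℝ (fun s v => BInt P K (fun a z => ⟪s.1 1 a z, v.1 1 a z⟫_ℝ))
    (fun s s' v => by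
      rw [← BInt_add P K (BD_inner π s.2 v.2) (BD_inner π s'.2 v.2)]
      refine BInt_congr P K fun a z _ => ?_
      show ⟪s.1 1 a z + s'.1 1 a z, v.1 1 a z⟫_ℝ = _
      rw [inner_add_left])
    (fun c s v => by
      rw [smul_eq_mul, ← BInt_smul]
      refine BInt_congr P K fun a z _ => ?_
      show ⟪c • s.1 1 a z, v.1 1 a z⟫_ℝ = _
      rw [real_inner_smul_left])
    (fun s v v' => by
      rw [← BInt_add P K (BD_inner π s.2 v.2) (BD_inner π s.2 v'.2)]
      refine BInt_congr P K fun a z _ => ?_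
      show ⟪s.1 1 a z, v.1 1 a z + v'.1 1 a z⟫_ℝ = _
      rw [inner_add_right])
    (fun c s v => by
      rw [smul_eq_mul, ← BInt_smul]
      refine BInt_congr P K fun a z _ => ?_
      show ⟪s.1 1 a z, c • v.1 1 a z⟫_ℝ = _
      rw [real_inner_smul_right])

theorem ipT_apply (P : PU C) (K : KM C) (s v : SM C π) :
    ipT P K π s v = BInt P K (fun a z => ⟪s.1 1 a z, v.1 1 a z⟫_ℝ) := rfl

theorem ipT_self (P : PU C) (K : KM C) (s : SM C π) :
    ipT P K π s s = BInt P K (fun a z => ‖s.1 1 a z‖ ^ 2) := by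
  rw [ipT_apply]
  exact BInt_congr P K fun a z _ => real_inner_self_eq_norm_sq _

theorem ipT_symm (P : PU C) (K : KM C) (s v : SM C π) : ipT P K π s v = ipT P K π v s := by
  rw [ipT_apply, ipT_apply]
  exact BInt_congr P K fun a z _ => real_inner_comm _ _

theorem ipT_nonneg (P : PU C) (K : KM C) (s : SM C π) : 0 ≤ ipT P K π s s := by
  rw [ipT_self]
  exact BInt_nonneg P K fun a z _ => sq_nonneg _

/-- the Laplacian, extended by `0` -/
def LF (K : KM C) (s : Γ → C.I → Cm n → H) (γ : Γ) (a : C.I) : Cm n → H :=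
  (C.Ω a).indicator (lapH (K.w a) (s γ a))

theorem LF_mem {K : KM C} {s : Γ → C.I → Cm n → H} {γ : Γ} {a : C.I} {z : Cm n}
    (hz : z ∈ C.Ω a) : LF K s γ a z = lapH (K.w a) (s γ a) z := indicator_of_mem hz _

theorem sec_ev {b : Γ → H} {u : Γ → C.I → Cm n → H} (hu : Sec C π b u) (γ : Γ) {a d : C.I}
    {z : Cm n} (hz : z ∈ C.O a d) :
    ∀ᶠ y in 𝓝 z, u γ a y = u (γ * C.κ a d z) d (C.T a d y) := by
  filter_upwards [(C.O_open a d).mem_nhds hz, C.κ_loc a d z hz] with y hy hk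
  rw [hu.compat γ a d y hy, hk]

theorem sec_eq {b : Γ → H} {u : Γ → C.I → Cm n → H} (hu : Sec C π b u) (g γ : Γ) {a : C.I}
    {z : Cm n} (hz : z ∈ C.Ω a) :
    u (g * γ) a =ᶠ[𝓝 z] fun y => π g (u γ a y) + b g := by
  filter_upwards [(isOpen_Ω C a).mem_nhds hz] with y hy
  exact hu.equi g γ a y hy

/-- the Laplacian of a section -/
theorem sec_lap (K : KM C) {b : Γ → H} {u : Γ → C.I → Cm n → H} (hu : Sec C π b u) :
    Sec C π 0 (fun γ a => lapH (K.w a) (u γ a)) where
  smooth γ a z hz := by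
    unfold lapH
    exact ContDiffAt.sum fun i _ => ContDiffAt.sum fun j _ =>
      (cw_cont (K.ku a) hz i j).smul (ddH_sm (hu.smooth γ a z hz) i j)
  compat γ a d z hz := by
    have hTz := T_mem_Ω C hz
    have hs := hu.smooth γ a z (O_sub_Ω C hz)
    have hs' := hu.smooth (γ * C.κ a d z) d (C.T a d z) hTz
    exact (chg H730.V.vpStmt (K.w a) (K.w d) (u γ a) (u γ a) (u (γ * C.κ a d z) d)
      (u (γ * C.κ a d z) d) (C.T a d) z (T_ev C hz) ((K.ku a).pos z (O_sub_Ω C hz))
      ((K.ku d).pos _ hTz) (K.change a d z hz) hs hs hs' hs' (sec_ev hu γ hz)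
      (sec_ev hu γ hz)).1
  equi g γ a z hz := by
    rw [lapH_congr (K.w a) (sec_eq hu g γ hz), lapH_iso, Pi.zero_apply, add_zero]

theorem sec_LF (K : KM C) {b : Γ → H} {u : Γ → C.I → Cm n → H} (hu : Sec C π b u) :
    Sec C π 0 (LF K u) := sec_congr (sec_lap K hu) fun _ _ _ hz => LF_mem hz

/-- the operator as a linear map -/
def LT (K : KM C) (π : Γ →* (H ≃ₗᵢ[ℝ] H)) : SM C π →ₗ[ℝ] SM C π where
  toFun s := ⟨LF K s.1, sec_LF K s.2⟩
  map_add' s v := by
    apply Subtype.ext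
    funext γ a z
    show LF K (s.1 + v.1) γ a z = LF K s.1 γ a z + LF K v.1 γ a z
    by_cases hz : z ∈ C.Ω a
    · rw [LF_mem hz, LF_mem hz, LF_mem hz]
      exact lapH_add _ (s.2.smooth γ a z hz) (v.2.smooth γ a z hz)
    · simp only [LF, indicator_of_notMem hz, add_zero]
  map_smul' c s := by
    apply Subtype.ext
    funext γ a z
    show LF K (c • s.1) γ a z = c • LF K s.1 γ a z
    by_cases hz : z ∈ C.Ω a
    · rw [LF_mem hz, LF_mem hz]
      exact lapH_smul _ c (s.2.smooth γ a z hz)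
    · simp only [LF, indicator_of_notMem hz, smul_zero]

theorem LT_val (K : KM C) (s : SM C π) : (LT K π s).1 = LF K s.1 := rfl

/-- the energy -/
def enT (P : PU C) (K : KM C) (π : Γ →* (H ≃ₗᵢ[ℝ] H)) : SM C π →ₗ[ℝ] SM C π →ₗ[ℝ] ℝ :=
  -((ipT P K π).comp (LT K π))

theorem BInt_LF (P : PU C) (K : KM C) (u : Γ → C.I → Cm n → H) (v : C.I → Cm n → H) :
    BInt P K (fun a z => ⟪LF K u 1 a z, v a z⟫_ℝ) =
      BInt P K (fun a z => ⟪lapH (K.w a) (u 1 a) z, v a z⟫_ℝ) :=
  BInt_congr P K fun a z hz => by rw [LF_mem (V_sub_Ω C a hz)]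

variable [CompleteSpace H]

theorem enT_eq (h2 : Vale.Agent.P284.H409.T.T2Stmt) (P : PU C) (K : KM C) (s v : SM C π) :
    enT P K π s v = BInt P K (fun a z => grH (K.w a) (s.1 1 a) (v.1 1 a) z) := by
  have h1 : enT P K π s v = -BInt P K (fun a z => ⟪LF K s.1 1 a z, v.1 1 a z⟫_ℝ) := rfl
  rw [h1, BInt_LF P K s.1 (v.1 1), (h2 n Γ C P K H π 0 s.1 s.2).1 v.1 v.2, neg_neg]

theorem enT_symm (h2 : Vale.Agent.P284.H409.T.T2Stmt) (P : PU C) (K : KM C) (s v : SM C π) :
    enT P K π s v = enT P K π v s := by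
  rw [enT_eq h2, enT_eq h2]
  refine BInt_congr P K fun a z hz => ?_
  have hz' := V_sub_Ω C a hz
  exact grH_symm H730.V.vpStmt ((K.ku a).pos z hz') (da (s.2.smooth 1 a z hz'))
    (da (v.2.smooth 1 a z hz'))

theorem enT_nonneg (h2 : Vale.Agent.P284.H409.T.T2Stmt) (P : PU C) (K : KM C) (s : SM C π) :
    0 ≤ enT P K π s s := by
  rw [enT_eq h2]
  refine BInt_nonneg P K fun a z hz => ?_
  have hz' := V_sub_Ω C a hz
  exact grH_nonneg H730.V.vpStmt ((K.ku a).pos z hz') (da (s.2.smooth 1 a z hz'))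

end glob

end Vale.Agent.P284.H977.T
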