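import Vale.Agent.P284.H977.T.Mod

/-!
# P284, theorem T, row T8 (helper977): nonconstant pluriharmonic functions if the group is not Kazhdan
-/

open scoped Manifold ContDiff Topology Pointwise ComplexConjugate ComplexOrder InnerProductSpace
open Filter Set Metric MeasureTheory

noncomputable section

namespace Vale.Agent.P284.H977.T

open Vale.Agent.P272.K Vale.Agent.P284.H248 Vale.Agent.P284.H894 Vale.Agent.P284.H894.V
  Vale.Agent.P284.H639.V Vale.Agent.P284.H639.Tw Vale.Agent.P284.H639.T6 Vale.Agent.P284.H913.V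
  Vale.Agent.P284.H287.T Vale.Agent.P284.H359.V Vale.Agent.P284.H66 Vale.Agent.P284.H66.S7
  Vale.Agent.P284.H119.Kaz
open Vale.Agent.P284.H409.T (T2Stmt T3Stmt T4Stmt T5Stmt T6Stmt T7Concl T8Stmt Part1T)

variable {n : ℕ} {Γ : Type} [Group Γ] {C : Coc n Γ} {H : Type} [NormedAddCommGroup H]
  [InnerProductSpace ℝ H] [CompleteSpace H] {π : Γ →* (H ≃ₗᵢ[ℝ] H)}

/-- the norm of `l v - Δ v - s` -/
theorem ip_res (P : PU C) (K : KM C) (l : ℝ) (v s : SM C π) :
    ipT P K π (l • v - LT K π v - s) (l • v - LT K π v - s) =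
      BInt P K (fun a z => ‖l • v.1 1 a z - lapH (K.w a) (v.1 1 a) z - s.1 1 a z‖ ^ 2) := by
  rw [ipT_self]
  refine BInt_congr P K fun a z hz => ?_
  congr 2
  show l • v.1 1 a z - LF K v.1 1 a z - s.1 1 a z = _
  rw [LF_mem (V_sub_Ω C a hz)]

/-- dense range on the module -/
theorem dens_SM (h3 : T3Stmt) (P : PU C) (K : KM C) (π : Γ →* (H ≃ₗᵢ[ℝ] H)) :
    ∃ l₀ : ℝ, 0 < l₀ ∧ ∀ l, l₀ ≤ l → ∀ f : SM C π, ∀ δ : ℝ, 0 < δ → ∃ v : SM C π,
      ipT P K π (l • v - LT K π v - f) (l • v - LT K π v - f) < δ := by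
  obtain ⟨l₀, hl₀, h⟩ := h3 n Γ C P K H π
  refine ⟨l₀, hl₀, fun l hl s δ hδ => ?_⟩
  obtain ⟨v, hv, hlt⟩ := h l hl s.1 s.2 δ hδ
  refine ⟨⟨v, hv⟩, ?_⟩
  rw [ip_res]
  exact hlt

/-- the Kähler identity on the module -/
theorem hh_le (h2 : T2Stmt) (P : PU C) (K : KM C) (s : SM C π) :
    BInt P K (fun a z => hhH (K.w a) (s.1 1 a) (s.1 1 a) z) ≤
      ipT P K π (LT K π s) (LT K π s) := by
  refine ((h2 n Γ C P K H π 0 s.1 s.2).2).trans (le_of_eq ?_)
  rw [ipT_self]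
  refine BInt_congr P K fun a z hz => ?_
  rw [LT_val, LF_mem (V_sub_Ω C a hz)]

theorem t8Stmt : T8Stmt := by
  intro h2 h3 h4 h5 h6 h7 h15 n X _ _ _ _ _ _ w hw E Γ _ _ _ _ p hG hK
  obtain ⟨C, P, K, -, hv⟩ := h15 n X w hw E Γ p hG
  obtain ⟨c, A, ε₁, hc, hA, hε₁, h6'⟩ := h6 n Γ C P K
  obtain ⟨u, B, hu⟩ := h7 n Γ C P K (by
    intro ε hε
    obtain ⟨δ, hδ, hδ1, hδ2⟩ : ∃ δ : ℝ, 0 < δ ∧ δ ≤ ε₁ ∧ A * δ ^ 2 < ε * c := by
      have h1 : 0 < ε * c / (2 * A) := by positivity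
      refine ⟨min ε₁ (√(ε * c / (2 * A))), lt_min hε₁ (Real.sqrt_pos.2 h1), min_le_left _ _, ?_⟩
      have e1 : (min ε₁ (√(ε * c / (2 * A)))) ^ 2 ≤ ε * c / (2 * A) := by
        calc _ ≤ (√(ε * c / (2 * A))) ^ 2 :=
              pow_le_pow_left₀ (le_min hε₁.le (Real.sqrt_nonneg _)) (min_le_right _ _) 2
          _ = _ := Real.sq_sqrt h1.le
      have e2 : A * (ε * c / (2 * A)) = ε * c / 2 := by field_simp
      have e3 := mul_le_mul_of_nonneg_left e1 hA.le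
      have e4 : 0 < ε * c := by positivity
      linarith
    obtain ⟨H, _, _, _, π, ξ, hξ, hs, hinv⟩ := not_kazhdan hK C.N hδ
    obtain ⟨f, hf, hf1, hf2⟩ := h6' H π ξ δ hξ hδ.le hδ1 hs
    have hen : ∀ s : SM C π, enT P K π s s = BInt P K
        (fun a z => grH (K.w a) (s.1 1 a) (s.1 1 a) z) := fun s => enT_eq h2 P K s s
    obtain ⟨g, hg⟩ := h5 (SM C π) (ipT P K π) (enT P K π) (LT K π)
      (fun s t => ipT_symm P K s t) (fun s => ipT_nonneg P K s)
      (fun s t => enT_symm h2 P K s t) (fun s => enT_nonneg h2 P K s)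
      (fun s t => by
        show ipT P K π (LT K π s) t = -(-(ipT P K π (LT K π s) t))
        ring)
      (dens_SM h3 P K π)
      (fun h hB hE s => by
        have e1 := h4 n Γ C P K H π hinv (fun j => (h j).1) (fun j => (h j).2)
          (by
            obtain ⟨B, hB⟩ := hB
            exact ⟨B, fun j => by rw [← ipT_self P K (h j)]; exact hB j⟩)
          (by
            simp only [hen] at hE
            exact hE) s.1 s.2
        exact e1)
      ε hε ⟨⟨f, hf⟩, by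
        rw [hen, ipT_self]
        calc _ ≤ A * δ ^ 2 := hf2
          _ < ε * c := hδ2
          _ ≤ _ := mul_le_mul_of_nonneg_left hf1 hε.le⟩
    refine ⟨H, _, _, ‹_›, π, g.1, g.2, ?_⟩
    have e1 := hh_le h2 P K g
    rw [hen] at hg
    linarith)
  exact hv u B hu

end Vale.Agent.P284.H977.T
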